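import Vale.Agent.P284.H894.SpecSub

/-! # P284 block B0 (helper283): summable weights on a group. -/

open Filter Set Metric
open scoped Topology ENNReal

noncomputable section

namespace Vale.Agent.P284.H283

open Vale.Agent.P284.H894

open Classical in
/-- iterated neighbourhood counts -/
def wf {Γ : Type} [Group Γ] (N : Finset Γ) : ℕ → Γ → ℝ≥0∞
  | 0 => fun γ => if γ = 1 then 1 else 0
  | j + 1 => fun γ => ∑ k ∈ N, wf N j (γ * k)

theorem wf_tsum {Γ : Type} [Group Γ] (N : Finset Γ) (j : ℕ) :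
    ∑' γ, wf N j γ = (N.card : ℝ≥0∞) ^ j := by
  classical
  induction j with
  | zero => simp [wf]
  | succ j ih =>
    have h1 : ∀ k : Γ, ∑' γ, wf N j (γ * k) = ∑' γ, wf N j γ := fun k =>
      (Equiv.mulRight k).tsum_eq (fun γ => wf N j γ)
    calc ∑' γ, wf N (j + 1) γ = ∑' γ, ∑ k ∈ N, wf N j (γ * k) := rfl
      _ = ∑ k ∈ N, ∑' γ, wf N j (γ * k) := by
          rw [Summable.tsum_finsetSum]
          intro i _
          exact ENNReal.summable
      _ = ∑ k ∈ N, (N.card : ℝ≥0∞) ^ j := by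
          apply Finset.sum_congr rfl
          intro k _
          rw [h1, ih]
      _ = (N.card : ℝ≥0∞) ^ (j + 1) := by
          rw [Finset.sum_const, nsmul_eq_mul, pow_succ, mul_comm]

/-- **B0** -/
theorem b0 : B0Stmt := by
  intro Γ _ N
  set K : ℝ := 2 * (N.card : ℝ) + 2 with hK
  have hK1 : 1 ≤ K := by
    have : (0 : ℝ) ≤ N.card := Nat.cast_nonneg _
    rw [hK]; linarith
  have hK0 : 0 < K := by linarith
  set lam : ℝ≥0∞ := (ENNReal.ofReal K)⁻¹ with hlam
  have hl0 : ENNReal.ofReal K ≠ 0 := by simpa using hK0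
  have hlt : ENNReal.ofReal K ≠ ∞ := ENNReal.ofReal_ne_top
  have hlK : ENNReal.ofReal K * lam = 1 := ENNReal.mul_inv_cancel hl0 hlt
  set A : Γ → ℝ≥0∞ := fun γ => ∑' j, lam ^ j * wf N j γ with hA
  have hsum : ∑' γ, A γ ≠ ∞ := by
    have h1 : ∑' γ, A γ = ∑' j, lam ^ j * (N.card : ℝ≥0∞) ^ j := by
      rw [hA, ENNReal.tsum_comm]
      congr 1
      funext j
      rw [ENNReal.tsum_mul_left, wf_tsum]
    have h2 : lam * (N.card : ℝ≥0∞) ≤ 2⁻¹ := by
      rw [hlam, mul_comm, ← div_eq_mul_inv]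
      apply ENNReal.div_le_of_le_mul
      rw [show (2⁻¹ : ℝ≥0∞) = ENNReal.ofReal (1 / 2) by
        rw [ENNReal.ofReal_div_of_pos (by norm_num)]; simp,
        ← ENNReal.ofReal_mul (by norm_num), ← ENNReal.ofReal_natCast]
      apply ENNReal.ofReal_le_ofReal
      rw [hK]; linarith
    rw [h1]
    have h3 : ∀ j : ℕ, lam ^ j * (N.card : ℝ≥0∞) ^ j ≤ 2⁻¹ ^ j := by
      intro j
      rw [← mul_pow]
      exact pow_le_pow_left₀ zero_le h2 j
    refine ne_top_of_le_ne_top ?_ (ENNReal.tsum_le_tsum h3)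
    rw [ENNReal.tsum_geometric]
    simp
  have hAne : ∀ γ, A γ ≠ ∞ := fun γ => ne_top_of_le_ne_top hsum (ENNReal.le_tsum γ)
  refine ⟨fun γ => (A γ).toReal, K, ENNReal.summable_toReal hsum, fun γ => ENNReal.toReal_nonneg,
    ?_, hK1, ?_⟩
  · have h1 : (1 : ℝ≥0∞) ≤ A 1 := by
      refine le_trans ?_ (ENNReal.le_tsum 0)
      simp [wf]
    have := ENNReal.toReal_mono (hAne 1) h1
    simpa using this
  · intro γ k hk
    have h1 : A (γ * k) ≤ ENNReal.ofReal K * A γ := by
      calc A (γ * k) = ∑' j, lam ^ j * wf N j (γ * k) := rfl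
        _ ≤ ∑' j, ENNReal.ofReal K * (lam ^ (j + 1) * wf N (j + 1) γ) := by
            apply ENNReal.tsum_le_tsum
            intro j
            rw [← mul_assoc, pow_succ', ← mul_assoc, hlK, one_mul]
            gcongr
            exact Finset.single_le_sum (f := fun k => wf N j (γ * k)) (fun _ _ => zero_le) hk
        _ = ENNReal.ofReal K * ∑' j, (lam ^ (j + 1) * wf N (j + 1) γ) := by
            rw [ENNReal.tsum_mul_left]
        _ ≤ ENNReal.ofReal K * A γ := by
            gcongr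
            exact ENNReal.tsum_comp_le_tsum_of_injective (Nat.succ_injective)
              (fun j => lam ^ j * wf N j γ)
    have h2 := ENNReal.toReal_mono (ENNReal.mul_ne_top hlt (hAne γ)) h1
    rwa [ENNReal.toReal_mul, ENNReal.toReal_ofReal hK0.le] at h2

end Vale.Agent.P284.H283
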