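import Vale.Agent.P284.H894.SpecSub
import Mathlib.Topology.Algebra.Group.SubmonoidClosure
import Mathlib.Analysis.Normed.Group.Tannery
import Mathlib.Analysis.Complex.Circle

/-! # P284 block E0 (helper283): power sums of a square summable family. -/

open Filter Set Metric
open scoped Topology

noncomputable section

namespace Vale.Agent.P284.H283

open Vale.Agent.P284.H894

/-- simultaneous recurrence: finitely many unit complex numbers have arbitrarily large powers close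
to `1`. -/
theorem rec_pow {I : Type} [Fintype I] (u : I → ℂ) (hu : ∀ i, ‖u i‖ = 1) (k0 : ℕ) :
    ∃ k, k0 ≤ k ∧ ∀ i, ‖u i ^ k - 1‖ < 1 / 2 := by
  classical
  let x : I → Circle := fun i => ⟨u i, by simpa [Submonoid.unitSphere] using hu i⟩
  have h := mapClusterPt_one_atTop_pow x
  have hU : {v : I → Circle | ∀ i, ‖(v i : ℂ) - 1‖ < 1 / 2} ∈ 𝓝 (1 : I → Circle) := by
    have hcont : ∀ i : I, Continuous fun v : I → Circle => ‖(v i : ℂ) - 1‖ := by
      intro i
      fun_prop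
    have : IsOpen {v : I → Circle | ∀ i, ‖(v i : ℂ) - 1‖ < 1 / 2} := by
      have h : {v : I → Circle | ∀ i, ‖(v i : ℂ) - 1‖ < 1 / 2} =
          ⋂ i, {v : I → Circle | ‖(v i : ℂ) - 1‖ < 1 / 2} := by
        ext v; simp
      rw [h]
      exact isOpen_iInter_of_finite fun i => isOpen_lt (hcont i) continuous_const
    apply this.mem_nhds
    intro i
    simp
  have h2 := (mapClusterPt_iff_frequently.1 h) _ hU
  obtain ⟨k, hk, hk'⟩ := (h2.and_eventually (eventually_ge_atTop k0)).exists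
  refine ⟨k, hk', fun i => ?_⟩
  have h3 := hk i
  have h4 : (((x ^ k) i : Circle) : ℂ) = u i ^ k := by
    rw [Pi.pow_apply, Circle.coe_pow]
  rwa [h4] at h3

/-- **E0** -/
theorem e0 : E0Stmt := by
  classical
  intro Γ c hc ⟨γ0, hγ0⟩
  have hpos0 : 0 < ‖c γ0‖ ^ 2 := by positivity
  -- the maximum
  have hfin : {γ : Γ | ‖c γ0‖ ^ 2 ≤ ‖c γ‖ ^ 2}.Finite := by
    have h1 := hc.tendsto_cofinite_zero.eventually (gt_mem_nhds hpos0)
    have h2 : {γ : Γ | ¬ ‖c γ‖ ^ 2 < ‖c γ0‖ ^ 2}.Finite := h1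
    simpa using h2
  obtain ⟨γ1, hγ1, hmax1⟩ := Set.exists_max_image _ (fun γ => ‖c γ‖ ^ 2) hfin ⟨γ0, by simp⟩
  have hmax : ∀ γ, ‖c γ‖ ≤ ‖c γ1‖ := by
    intro γ
    have h3 : ‖c γ‖ ^ 2 ≤ ‖c γ1‖ ^ 2 := by
      by_cases h : ‖c γ0‖ ^ 2 ≤ ‖c γ‖ ^ 2
      · exact hmax1 γ h
      · exact (not_le.1 h).le.trans hγ1
    exact le_of_sq_le_sq h3 (norm_nonneg _)
  have hM : 0 < ‖c γ1‖ := by
    have h3 : ‖c γ0‖ ≤ ‖c γ1‖ := hmax γ0
    have : 0 < ‖c γ0‖ := norm_pos_iff.2 hγ0
    linarith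
  set M : ℝ := ‖c γ1‖ with hMdef
  set d : Γ → ℂ := fun γ => c γ / (M : ℂ) with hd
  have hMC : (M : ℂ) ≠ 0 := by exact_mod_cast hM.ne'
  have hdn : ∀ γ, ‖d γ‖ ≤ 1 := by
    intro γ
    rw [hd]
    simp only [norm_div, Complex.norm_real, Real.norm_eq_abs, abs_of_pos hM]
    rw [div_le_one hM]
    exact hmax γ
  have hds : Summable fun γ => ‖d γ‖ ^ 2 := by
    have : (fun γ => ‖d γ‖ ^ 2) = fun γ => ‖c γ‖ ^ 2 * (M ^ 2)⁻¹ := by
      funext γ
      rw [hd]
      simp only [norm_div, Complex.norm_real, Real.norm_eq_abs, abs_of_pos hM]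
      rw [div_pow, div_eq_mul_inv]
    rw [this]
    exact hc.mul_right _
  -- the finite set of the maximal ones
  have hIfin : {γ : Γ | ‖d γ‖ = 1}.Finite := by
    have h1 := hds.tendsto_cofinite_zero.eventually (gt_mem_nhds (show (0 : ℝ) < 1 by norm_num))
    have h2 : {γ : Γ | ¬ ‖d γ‖ ^ 2 < 1}.Finite := h1
    refine h2.subset ?_
    intro γ hγ
    simp only [Set.mem_ofPred_eq] at hγ ⊢
    rw [hγ]; norm_num
  set I : Finset Γ := hIfin.toFinset with hI
  have hIm : ∀ γ, γ ∈ I ↔ ‖d γ‖ = 1 := by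
    intro γ; rw [hI]; simp
  have hγ1I : γ1 ∈ I := by
    rw [hIm, hd]
    simp only [norm_div, Complex.norm_real, Real.norm_eq_abs, abs_of_pos hM]
    rw [← hMdef]
    exact div_self hM.ne'
  -- the rest tends to zero
  have hrest : Tendsto (fun k : ℕ => ∑' γ, if γ ∈ I then (0 : ℂ) else d γ ^ k) atTop (𝓝 0) := by
    have h0 : ∑' γ : Γ, (0 : ℂ) = 0 := by simp
    suffices h : Tendsto (fun k : ℕ => ∑' γ, if γ ∈ I then (0 : ℂ) else d γ ^ k) atTop
        (𝓝 (∑' γ : Γ, (0 : ℂ))) by rwa [h0] at h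
    apply tendsto_tsum_of_dominated_convergence (bound := fun γ => ‖d γ‖ ^ 2) hds
    · intro γ
      by_cases h : γ ∈ I
      · simp [h]
      · simp only [h, if_false]
        apply tendsto_pow_atTop_nhds_zero_of_norm_lt_one
        exact lt_of_le_of_ne (hdn γ) (fun h' => h ((hIm γ).2 h'))
    · filter_upwards [eventually_ge_atTop 2] with k hk γ
      by_cases h : γ ∈ I
      · rw [if_pos h, norm_zero]; positivity
      · rw [if_neg h, norm_pow]
        exact pow_le_pow_of_le_one (norm_nonneg _) (hdn γ) hk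
  obtain ⟨k0, hk0⟩ := (Metric.tendsto_atTop.1 hrest) (1 / 2) (by norm_num)
  obtain ⟨k, hk, hrec⟩ := rec_pow (fun i : I => d i) (fun i => (hIm i).1 i.2) (max k0 2)
  have hk2 : 2 ≤ k := le_trans (le_max_right _ _) hk
  refine ⟨k, hk2, ?_⟩
  intro hzero
  have hsd : Summable fun γ => d γ ^ k := by
    apply Summable.of_norm_bounded hds
    intro γ
    rw [norm_pow]
    exact pow_le_pow_of_le_one (norm_nonneg _) (hdn γ) hk2
  have hzd : ∑' γ, d γ ^ k = 0 := by
    have : (fun γ => d γ ^ k) = fun γ => c γ ^ k * ((M : ℂ) ^ k)⁻¹ := by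
      funext γ
      rw [hd]
      simp only
      rw [div_pow, div_eq_mul_inv]
    rw [this, tsum_mul_right, hzero, zero_mul]
  have hsplit : ∑' γ, d γ ^ k = ∑ γ ∈ I, d γ ^ k + ∑' γ, if γ ∈ I then (0 : ℂ) else d γ ^ k := by
    have h1 : Summable fun γ => if γ ∈ I then d γ ^ k else 0 :=
      summable_of_ne_finset_zero (s := I) (fun γ hγ => by simp [hγ])
    have h2 : Summable fun γ => if γ ∈ I then (0 : ℂ) else d γ ^ k := by
      have := hsd.sub h1
      refine this.congr ?_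
      intro γ
      by_cases h : γ ∈ I <;> simp [h]
    have h3 : ∑' γ, (if γ ∈ I then d γ ^ k else 0) = ∑ γ ∈ I, d γ ^ k := by
      rw [tsum_eq_sum (s := I) (fun γ hγ => by simp [hγ])]
      apply Finset.sum_congr rfl
      intro γ hγ
      simp [hγ]
    rw [← h3, ← h1.tsum_add h2]
    congr 1
    funext γ
    by_cases h : γ ∈ I <;> simp [h]
  have hlt := hk0 k (le_trans (le_max_left _ _) hk)
  rw [dist_zero_right] at hlt
  have hre : ∀ γ ∈ I, 1 / 2 < (d γ ^ k).re := by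
    intro γ hγ
    have h1 := hrec ⟨γ, hγ⟩
    simp only at h1
    have h2 := Complex.abs_re_le_norm (d γ ^ k - 1)
    have h3 : |(d γ ^ k - 1).re| < 1 / 2 := lt_of_le_of_lt h2 h1
    rw [Complex.sub_re, Complex.one_re] at h3
    have := (abs_lt.1 h3).1
    linarith
  have hsumre : 1 / 2 < (∑ γ ∈ I, d γ ^ k).re := by
    rw [Complex.re_sum]
    calc (1 / 2 : ℝ) < (d γ1 ^ k).re := hre γ1 hγ1I
      _ ≤ ∑ γ ∈ I, (d γ ^ k).re :=
        Finset.single_le_sum (f := fun γ => (d γ ^ k).re)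
          (fun γ hγ => by have := hre γ hγ; show 0 ≤ (d γ ^ k).re; linarith) hγ1I
  rw [hsplit] at hzd
  have h5 : (∑ γ ∈ I, d γ ^ k).re = -(∑' γ, if γ ∈ I then (0 : ℂ) else d γ ^ k).re := by
    have := congrArg Complex.re hzd
    rw [Complex.add_re, Complex.zero_re] at this
    linarith
  have h6 := Complex.abs_re_le_norm (∑' γ, if γ ∈ I then (0 : ℂ) else d γ ^ k)
  have h7 := neg_abs_le (∑' γ, if γ ∈ I then (0 : ℂ) else d γ ^ k).re
  have h8 := abs_nonneg (∑' γ, if γ ∈ I then (0 : ℂ) else d γ ^ k).re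
  rw [h5] at hsumre
  linarith

end Vale.Agent.P284.H283
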